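import Vale.Agent.P050.H687.Spec

/-!
P050, substitution into two-sided Sidorenko graphs: case (A), both parts thin over `K`.
-/

set_option linter.unusedSectionVars false

namespace Vale.Agent.P050.H43

open Finset Vale.Agent.P050.Lev Vale.Agent.P050.Tmpl Vale.Agent.P050.H177 Vale.Agent.P050.H687

section basics

variable {V U : Type} [Fintype V] [DecidableEq V] {H : SimpleGraph V} {s : V → Bool}
  {W : U → U → ℝ} {m : Bool → U → ℝ}

theorem bw_empty (K : Finset V) (r x : V → U) : bw H s W ∅ K r x = aw H s W K x := by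
  unfold bw aw
  refine prod_congr rfl fun u _ => prod_congr rfl fun v _ => ?_
  simp

theorem ed_nonneg (hW : ∀ x y, 0 ≤ W x y) (u v : V) (x y : U) : 0 ≤ ed H s W u v x y := by
  unfold ed
  split_ifs
  · exact hW _ _
  · exact zero_le_one

theorem pm_nonneg (hm : ∀ b x, 0 ≤ m b x) (x : V → U) : 0 ≤ pm s m x :=
  prod_nonneg fun v _ => hm _ _

theorem ite_ed_nonneg (hW : ∀ x y, 0 ≤ W x y) (c : Prop) [Decidable c] (u v : V) (x y : U) :
    0 ≤ if c then ed H s W u v x y else 1 := by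
  split_ifs
  · exact ed_nonneg hW _ _ _ _
  · exact zero_le_one

theorem aw_nonneg (hW : ∀ x y, 0 ≤ W x y) (K : Finset V) (r : V → U) : 0 ≤ aw H s W K r :=
  prod_nonneg fun _ _ => prod_nonneg fun _ _ => ite_ed_nonneg hW _ _ _ _ _

theorem bw_nonneg (hW : ∀ x y, 0 ≤ W x y) (K B : Finset V) (r x : V → U) :
    0 ≤ bw H s W K B r x :=
  prod_nonneg fun _ _ => prod_nonneg fun _ _ => mul_nonneg
    (mul_nonneg (ite_ed_nonneg hW _ _ _ _ _) (ite_ed_nonneg hW _ _ _ _ _))
    (ite_ed_nonneg hW _ _ _ _ _)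

theorem dw_nonneg (hW : ∀ x y, 0 ≤ W x y) (X Y : Finset V) (x y : V → U) :
    0 ≤ dw H s W X Y x y :=
  prod_nonneg fun _ _ => prod_nonneg fun _ _ => mul_nonneg (ite_ed_nonneg hW _ _ _ _ _)
    (ite_ed_nonneg hW _ _ _ _ _)

variable [Fintype U]

theorem mean_one (h : Bir m W) : ∑ x, ∑ y, m false x * m true y * W x y = 1 := by
  rw [← h.m1 false]
  refine sum_congr rfl fun x _ => ?_
  by_cases hx : m false x = 0
  · simp [hx]
  · have : (∑ y, m false x * m true y * W x y) = m false x * ∑ y, m true y * W x y := by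
      rw [mul_sum]
      exact sum_congr rfl fun y _ => by ring
    rw [this, h.row x hx, mul_one]

theorem dens_one (hH : GSid H s) (h : Bir m W) :
    1 ≤ ∑ z : V → U, (∏ v, m (s v) (z v)) * ∏ e ∈ sideEdges H s, W (z e.1) (z e.2) := by
  have := hH.2.2 U m W h.m0 h.m1 h.W0
  rwa [mean_one h, one_pow] at this

/-- the values on `K` have mass one -/
theorem sum_aw (hT : ThinStmt) (h : Bir m W) (hb : ∀ u v, H.Adj u v → s u ≠ s v) (K : Finset V)
    (hK : Thin H ∅ K) : ∑ r : V → U, pm s m r * aw H s W K r = 1 := by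
  rcases isEmpty_or_nonempty V with hV | ⟨⟨v0⟩⟩
  · have h1 := hT V U m W H s ∅ K (fun v => (IsEmpty.false v).elim) h hb
      (fun v hv => absurd hv (notMem_empty v)) hK
    rw [← h1]
    exact sum_congr rfl fun r _ => by rw [bw_empty]
  · have hU : Nonempty U := by
      by_contra hU
      rw [not_nonempty_iff] at hU
      have := h.m1 false
      rw [Fintype.sum_empty] at this
      exact zero_ne_one this
    obtain ⟨u0⟩ := hU
    have h1 := hT V U m W H s ∅ K (fun _ => u0) h hb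
      (fun v hv => absurd hv (notMem_empty v)) hK
    rw [← h1]
    exact sum_congr rfl fun r _ => by rw [bw_empty]

end basics

section graph

variable {VG V : Type} [Fintype VG] [DecidableEq VG] [Fintype V] [DecidableEq V]
  {G : SimpleGraph VG} {t : VG → Bool} {H : SimpleGraph V} {s : V → Bool} {K : Finset V}
  {τ : V → Bool}

theorem sub_bip (hH : ∀ u v, H.Adj u v → s u ≠ s v) :
    ∀ u v, (relSub G t H τ K).Adj u v → subSide s t τ K u ≠ subSide s t τ K v := by
  rintro (u | p) (v | q) h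
  · exact hH _ _ h
  · exact hH _ _ h
  · exact hH _ _ h
  · exact hH _ _ h.2

theorem exists_adj (hne : Nonempty VG) (hG : ∀ p q, G.Adj p q → t p ≠ t q)
    (hGi : ∀ p, ∃ q, G.Adj p q) (hHi : ∀ u, ∃ v, H.Adj u v) (a : RV t τ K) :
    ∃ b, (relSub G t H τ K).Adj a b := by
  have hcol : ∀ b : Bool, ∃ p, t p = b := by
    obtain ⟨p⟩ := hne
    obtain ⟨q, hq⟩ := hGi p
    have h1 := hG p q hq
    intro b
    by_cases hb : t p = b
    · exact ⟨p, hb⟩
    · refine ⟨q, ?_⟩
      revert h1 hb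
      cases t p <;> cases t q <;> cases b <;> simp
  rcases a with ⟨u, hu⟩ | ⟨⟨p, v⟩, hv, hpv⟩
  · obtain ⟨w, hw⟩ := hHi u
    by_cases hwK : w ∈ K
    · exact ⟨Sum.inl ⟨w, hwK⟩, hw⟩
    · obtain ⟨q, hq⟩ := hcol (τ w)
      exact ⟨Sum.inr ⟨(q, w), hwK, hq⟩, hw⟩
  · obtain ⟨w, hw⟩ := hHi v
    by_cases hwK : w ∈ K
    · exact ⟨Sum.inl ⟨w, hwK⟩, hw⟩
    · by_cases ht : t p = τ w
      · exact ⟨Sum.inr ⟨(p, w), hwK, ht⟩, Or.inl rfl, hw⟩
      · obtain ⟨q, hq⟩ := hGi p
        have h1 := hG p q hq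
        refine ⟨Sum.inr ⟨(q, w), hwK, ?_⟩, Or.inr hq, hw⟩
        change t q = τ w
        revert h1 ht
        cases t p <;> cases t q <;> cases τ w <;> simp

theorem exists_edge {X : Type} [Fintype X] {F : SimpleGraph X} {σ : X → Bool}
    (hb : ∀ u v, F.Adj u v → σ u ≠ σ v) (hi : ∀ a, ∃ b, F.Adj a b) (a : X) :
    ∃ e ∈ sideEdges F σ, e.1 = a ∨ e.2 = a := by
  classical
  obtain ⟨b, hab⟩ := hi a
  have h1 := hb a b hab
  unfold sideEdges
  cases ha : σ a
  · refine ⟨(a, b), mem_filter.2 ⟨mem_univ _, hab, ha, ?_⟩, Or.inl rfl⟩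
    rw [ha] at h1
    change σ b = true
    revert h1
    cases σ b <;> simp
  · refine ⟨(b, a), mem_filter.2 ⟨mem_univ _, hab.symm, ?_, ha⟩, Or.inr rfl⟩
    rw [ha] at h1
    change σ b = false
    revert h1
    cases σ b <;> simp

/-- the reduction to biregular kernels -/
theorem gsid_of (hne : Nonempty VG) (hG : GSid G t) (hH : GSid H s)
    (hGi : ∀ p, ∃ q, G.Adj p q) (hHi : ∀ u, ∃ v, H.Adj u v)
    (h : ∀ (U : Type) [Fintype U] (m : Bool → U → ℝ) (W : U → U → ℝ), Bir m W →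
      1 ≤ ∑ z : RV t τ K → U, (∏ a, m (subSide s t τ K a) (z a)) *
        ∏ e ∈ sideEdges (relSub G t H τ K) (subSide s t τ K), W (z e.1) (z e.2)) :
    GSid (relSub G t H τ K) (subSide s t τ K) := by
  classical
  refine ⟨sub_bip hH.1, Vale.Agent.P050.H149.ksid_of_bireg ?_ ?_ ?_⟩
  · intro e he
    unfold sideEdges at he
    exact (mem_filter.1 he).2.2
  · exact exists_edge (sub_bip hH.1) (exists_adj hne hG.1 hGi hHi)
  · intro U _ m W m0 m1 W0 row col
    exact h U m W ⟨m0, m1, W0, row, col⟩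

end graph

theorem caseA (hT : ThinStmt) (hF : FactStmt) (hS : SubStmt) :
    ∀ (VG V : Type) [Fintype VG] [DecidableEq VG] [Fintype V] [DecidableEq V]
    (G : SimpleGraph VG) (t : VG → Bool) (H : SimpleGraph V) (s : V → Bool) (K : Finset V)
    (τ : V → Bool), Nonempty VG → GSid G t → GSid H s → (∀ p, ∃ q, G.Adj p q) →
    (∀ u, ∃ v, H.Adj u v) → Thin H ∅ K → (∀ b, Thin H K (pt τ K b)) →
    GSid (relSub G t H τ K) (subSide s t τ K) := by
  intro VG V _ _ _ _ G t H s K τ hne hG hH hGi hHi hK hB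
  refine gsid_of hne hG hH hGi hHi fun U _ m W h => ?_
  rw [hS VG V U m W G t H s K τ h.m1 hG.1]
  set M : (V → U) → ℝ := fun r => ∑ x : V → U, ∑ y : V → U,
    (pm s m x * bw H s W K (pt τ K false) r x) * (pm s m y * bw H s W K (pt τ K true) r y) *
      dw H s W (pt τ K false) (pt τ K true) x y with hM
  have hM0 : ∀ r, 0 ≤ M r := fun r => sum_nonneg fun x _ => sum_nonneg fun y _ =>
    mul_nonneg (mul_nonneg (mul_nonneg (pm_nonneg h.m0 _) (bw_nonneg h.W0 _ _ _ _))
      (mul_nonneg (pm_nonneg h.m0 _) (bw_nonneg h.W0 _ _ _ _))) (dw_nonneg h.W0 _ _ _ _)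
  have hA0 : ∀ r, 0 ≤ pm s m r * aw H s W K r := fun r =>
    mul_nonneg (pm_nonneg h.m0 _) (aw_nonneg h.W0 _ _)
  have hA1 := sum_aw hT h hH.1 K hK
  have hH1 := dens_one hH h
  rw [hF V U m W H s K τ h.m1] at hH1
  have hAM : (∑ r : V → U, pm s m r * aw H s W K r * M r) =
      ∑ r : V → U, pm s m r * aw H s W K r * ∑ x : V → U, pm s m x *
        bw H s W K (pt τ K false) r x * ∑ y : V → U, pm s m y *
        bw H s W K (pt τ K true) r y * dw H s W (pt τ K false) (pt τ K true) x y := by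
    refine sum_congr rfl fun r _ => ?_
    congr 1
    refine sum_congr rfl fun x _ => ?_
    rw [mul_sum]
    exact sum_congr rfl fun y _ => by ring
  rw [← hAM] at hH1
  have hJ := Real.pow_arith_mean_le_arith_mean_pow univ (fun r => pm s m r * aw H s W K r) M
    (fun r _ => hA0 r) hA1 (fun r _ => hM0 r) (sideEdges G t).card
  refine le_trans (one_le_pow₀ hH1) (le_trans hJ (sum_le_sum fun r _ => ?_))
  rcases eq_or_ne (pm s m r) 0 with hr | hr
  · rw [hr, zero_mul, zero_mul, zero_mul]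
  · refine mul_le_mul_of_nonneg_left ?_ (hA0 r)
    have hrK : ∀ v ∈ K, m (s v) (r v) ≠ 0 := fun v _ => prod_ne_zero_iff.1 hr v (mem_univ v)
    exact hG.2.2 (V → U) (fun b x => pm s m x * bw H s W K (pt τ K b) r x)
      (fun x y => dw H s W (pt τ K false) (pt τ K true) x y)
      (fun b x => mul_nonneg (pm_nonneg h.m0 _) (bw_nonneg h.W0 _ _ _ _))
      (fun b => hT V U m W H s K (pt τ K b) r h hH.1 hrK (hB b))
      (fun x y => dw_nonneg h.W0 _ _ _ _)

end Vale.Agent.P050.H43
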